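import Mathlib

/-!
# Discs accumulating at a closed set with empty interior
-/

open Set Metric MeasureTheory Topology TopologicalSpace

namespace Vale.Agent.P229.H969

section

variable {X : Type*} [MetricSpace X]

/-- One step: a small closed ball near a point `q` of `F`, inside `V`, off `F` and off the closed
set `C ⊆ Fᶜ`. -/
theorem exists_step {F V C : Set X} (hF : IsClosed F) (hi : interior F = ∅) (hV : IsOpen V)
    (hFV : F ⊆ V) (hC : IsClosed C) (hCF : C ⊆ Fᶜ) {q : X} (hq : q ∈ F) {δ : ℝ} (hδ : 0 < δ) :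
    ∃ (p : X) (r : ℝ), 0 < r ∧ r ≤ 1 ∧ closedBall p r ⊆ ball q δ ∩ V ∩ Cᶜ ∩ Fᶜ := by
  have hO : IsOpen (ball q δ ∩ V ∩ Cᶜ) := (isOpen_ball.inter hV).inter hC.isOpen_compl
  have hqO : q ∈ ball q δ ∩ V ∩ Cᶜ := ⟨⟨mem_ball_self hδ, hFV hq⟩, fun h => hCF h hq⟩
  have hne : ¬ (ball q δ ∩ V ∩ Cᶜ ⊆ F) := fun h => by
    have : q ∈ interior F := mem_interior.2 ⟨_, h, hO, hqO⟩
    rw [hi] at this
    exact this
  obtain ⟨p, hp, hpF⟩ := Set.not_subset.1 hne
  have hO' : IsOpen (ball q δ ∩ V ∩ Cᶜ ∩ Fᶜ) := hO.inter hF.isOpen_compl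
  obtain ⟨ε, hε, hb⟩ := Metric.isOpen_iff.1 hO' p ⟨hp, hpF⟩
  refine ⟨p, min (ε / 2) 1, by positivity, min_le_right _ _, fun y hy => hb ?_⟩
  rw [mem_ball]
  have h1 : dist y p ≤ min (ε / 2) 1 := hy
  have h2 := min_le_left (ε / 2) 1
  linarith

/-- Pairwise disjoint closed balls inside `V` and off `F`, whose centres accumulate at every point
of the closed set `F` with empty interior. -/
theorem exists_balls [SeparableSpace X] {F V : Set X} (hF : IsClosed F) (hi : interior F = ∅)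
    (hne : F.Nonempty) (hV : IsOpen V) (hFV : F ⊆ V) :
    ∃ (p : ℕ → X) (r : ℕ → ℝ), (∀ n, 0 < r n) ∧ (∀ n, r n ≤ 1) ∧
      (∀ n, closedBall (p n) (r n) ⊆ V) ∧ (∀ n, Disjoint (closedBall (p n) (r n)) F) ∧
      (Pairwise fun i j => Disjoint (closedBall (p i) (r i)) (closedBall (p j) (r j))) ∧
      ∀ z ∈ F, ∀ U, IsOpen U → z ∈ U → ∃ n, p n ∈ U := by
  classical
  have : Nonempty F := hne.to_subtype
  have : Nonempty X := ⟨hne.some⟩
  have : SecondCountableTopology X := UniformSpace.secondCountable_of_separable X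
  set q : ℕ → F := TopologicalSpace.denseSeq F with hq
  have hδ : ∀ n : ℕ, (0 : ℝ) < 1 / ((Nat.unpair n).2 + 1) := fun n => by positivity
  -- the choice
  choose! P R hR0 hR1 hPR using fun (n : ℕ) (C : Set X) (h : IsClosed C ∧ C ⊆ Fᶜ) =>
    exists_step hF hi hV hFV h.1 h.2 (q (Nat.unpair n).1).2 (hδ n)
  let C : ℕ → Set X := fun n => Nat.rec ∅ (fun n C => C ∪ closedBall (P n C) (R n C)) n
  have hC0 : C 0 = ∅ := rfl
  have hCs : ∀ n, C (n + 1) = C n ∪ closedBall (P n (C n)) (R n (C n)) := fun n => rfl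
  have hC : ∀ n, IsClosed (C n) ∧ C n ⊆ Fᶜ := by
    intro n
    induction n with
    | zero => rw [hC0]; exact ⟨isClosed_empty, empty_subset _⟩
    | succ n ih =>
      rw [hCs]
      refine ⟨ih.1.union isClosed_closedBall, union_subset ih.2 fun y hy => ?_⟩
      exact (hPR n (C n) ih hy).2
  have hmono : Monotone C := monotone_nat_of_le_succ fun n => by rw [hCs]; exact subset_union_left
  have hlt : ∀ i j, i < j → Disjoint (closedBall (P i (C i)) (R i (C i)))
      (closedBall (P j (C j)) (R j (C j))) := by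
    intro i j hij
    rw [Set.disjoint_left]
    intro y hy hy'
    have h1 : y ∈ C j := hmono (Nat.succ_le_of_lt hij) (by rw [hCs]; exact Or.inr hy)
    exact (hPR j (C j) (hC j) hy').1.2 h1
  refine ⟨fun n => P n (C n), fun n => R n (C n), fun n => hR0 n _ (hC n), fun n => hR1 n _ (hC n),
    fun n y hy => (hPR n _ (hC n) hy).1.1.2, fun n => Set.disjoint_left.2
      fun y hy hy' => (hPR n _ (hC n) hy).2 hy', fun i j hij => ?_, fun z hz U hU hzU => ?_⟩
  · rcases lt_or_gt_of_ne hij with h | h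
    · exact hlt i j h
    · exact (hlt j i h).symm
  · obtain ⟨ε, hε, hb⟩ := Metric.isOpen_iff.1 hU z hzU
    obtain ⟨m, hm⟩ := exists_nat_one_div_lt (half_pos hε)
    obtain ⟨j, hj⟩ := (TopologicalSpace.denseRange_denseSeq F).exists_dist_lt ⟨z, hz⟩ (half_pos hε)
    refine ⟨Nat.pair j m, hb ?_⟩
    have hn := hC (Nat.pair j m)
    have h1 := (hPR (Nat.pair j m) (C (Nat.pair j m)) hn
      (mem_closedBall_self (hR0 (Nat.pair j m) (C (Nat.pair j m)) hn).le)).1.1.1
    rw [Nat.unpair_pair, mem_ball] at h1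
    have h2 : dist z (q j : X) < ε / 2 := hj
    rw [mem_ball]
    have h3 := dist_triangle (P (Nat.pair j m) (C (Nat.pair j m))) (q j : X) z
    rw [dist_comm (q j : X) z] at h3
    linarith

end

/-- Pairwise disjoint closed discs inside `V` whose centres accumulate at every point of `F`. -/
theorem exists_discs {F V : Set (EuclideanSpace ℝ (Fin 2))} (hF : IsClosed F) (hi : interior F = ∅) (hne : F.Nonempty)
    (hV : IsOpen V) (hFV : F ⊆ V) :
    ∃ (p : ℕ → EuclideanSpace ℝ (Fin 2)) (r : ℕ → ℝ), (∀ n, 0 < r n) ∧ (∀ n, r n ≤ 1) ∧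
      (∀ n, closedBall (p n) (r n) ⊆ V) ∧
      (Pairwise fun i j => Disjoint (closedBall (p i) (r i)) (closedBall (p j) (r j))) ∧
      ∀ z ∈ F, ∀ U, IsOpen U → z ∈ U → ∃ n, p n ∈ U := by
  obtain ⟨p, r, h1, h2, h3, -, h5, h6⟩ := exists_balls hF hi hne hV hFV
  exact ⟨p, r, h1, h2, h3, h5, h6⟩

/-- A closed set with empty interior whose complement has small measure. -/
theorem exists_fat (η : ℝ) (hη : 0 < η) : ∃ F : Set (EuclideanSpace ℝ (Fin 2)), IsClosed F ∧ interior F = ∅ ∧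
    F.Nonempty ∧ volume Fᶜ < ENNReal.ofReal η := by
  obtain ⟨D, hDc, hDd⟩ := TopologicalSpace.exists_countable_dense (EuclideanSpace ℝ (Fin 2))
  have h0 : volume D < ENNReal.ofReal η := by
    rw [hDc.measure_zero]
    exact ENNReal.ofReal_pos.2 hη
  obtain ⟨U, hDU, hU, hUv⟩ := D.exists_isOpen_lt_of_lt _ h0
  refine ⟨Uᶜ, hU.isClosed_compl, ?_, ?_, by rwa [compl_compl]⟩
  · rw [interior_compl, (hDd.mono hDU).closure_eq, compl_univ]
  · rw [Set.nonempty_compl]
    rintro rfl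
    have : volume (univ : Set (EuclideanSpace ℝ (Fin 2))) = ⊤ := measure_univ_of_isAddLeftInvariant _
    rw [this] at hUv
    exact absurd hUv (not_lt.2 le_top)

end Vale.Agent.P229.H969
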